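import Vale.Agent.P205.Fourier.Series

/-!
Fourier coefficients of smooth periodic functions of two variables.
-/

namespace Vale.Agent.P205.Four

open scoped ContDiff Real
open Complex MeasureTheory UnitAddTorus

noncomputable section

noncomputable local instance : MeasureSpace UnitAddCircle := ⟨AddCircle.haarAddCircle⟩

local instance : Measure.IsAddHaarMeasure (volume : Measure UnitAddCircle) :=
  inferInstanceAs (Measure.IsAddHaarMeasure AddCircle.haarAddCircle)

local instance : IsProbabilityMeasure (volume : Measure UnitAddCircle) :=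
  inferInstanceAs (IsProbabilityMeasure AddCircle.haarAddCircle)

/-- The torus. -/
abbrev T2 := UnitAddTorus (Fin 2)

/-- The projection to the torus. -/
def proj (p : R2) : T2 := ![(p.1 : UnitAddCircle), (p.2 : UnitAddCircle)]

/-- The representative in the unit square. -/
def rep (t : T2) : R2 :=
  ((AddCircle.equivIco (1 : ℝ) 0 (t 0)).1, (AddCircle.equivIco (1 : ℝ) 0 (t 1)).1)

lemma proj_rep (t : T2) : proj (rep t) = t := by
  funext i
  fin_cases i <;> simp [proj, rep]

lemma periodic_int {α : Type*} {f : R2 → α} (hf : Periodic2 (1, 0) (0, 1) f) (m n : ℤ) (p : R2) :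
    f (p + ((m : ℝ), (n : ℝ))) = f p := by
  have h1 : Function.Periodic f ((1 : ℝ), (0 : ℝ)) := hf.1
  have h2 : Function.Periodic f ((0 : ℝ), (1 : ℝ)) := hf.2
  have h := ((h1.zsmul m).add_period (h2.zsmul n)) p
  simpa using h

/-- A function of the plane seen on the torus. -/
def liftT {α : Type*} (f : R2 → α) (t : T2) : α := f (rep t)

lemma proj_add (p q : R2) : proj (p + q) = proj p + proj q := by
  funext i
  fin_cases i <;> simp [proj]

lemma liftT_proj {α : Type*} {f : R2 → α} (hf : Periodic2 (1, 0) (0, 1) f) (p : R2) :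
    liftT f (proj p) = f p := by
  obtain ⟨m, hm⟩ : ∃ m : ℤ, (rep (proj p)).1 = p.1 + m := by
    have h : ((rep (proj p)).1 : UnitAddCircle) = (p.1 : UnitAddCircle) :=
      congr_fun (proj_rep (proj p)) 0
    obtain ⟨m, hm⟩ := (AddCircle.coe_eq_zero_iff (1 : ℝ)).mp
      (show (((rep (proj p)).1 - p.1 : ℝ) : UnitAddCircle) = 0 by rw [AddCircle.coe_sub, h, sub_self])
    refine ⟨m, ?_⟩
    simp at hm
    linarith
  obtain ⟨n, hn⟩ : ∃ n : ℤ, (rep (proj p)).2 = p.2 + n := by
    have h : ((rep (proj p)).2 : UnitAddCircle) = (p.2 : UnitAddCircle) :=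
      congr_fun (proj_rep (proj p)) 1
    obtain ⟨n, hn⟩ := (AddCircle.coe_eq_zero_iff (1 : ℝ)).mp
      (show (((rep (proj p)).2 - p.2 : ℝ) : UnitAddCircle) = 0 by rw [AddCircle.coe_sub, h, sub_self])
    refine ⟨n, ?_⟩
    simp at hn
    linarith
  rw [liftT, show rep (proj p) = p + ((m : ℝ), (n : ℝ)) from Prod.ext hm hn, periodic_int hf]

lemma continuous_proj : Continuous proj := by
  refine continuous_pi fun i => ?_
  fin_cases i <;> simp [proj] <;> fun_prop

lemma isQuotientMap_proj : Topology.IsQuotientMap proj := by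
  have h1 : IsOpenQuotientMap fun (g : Fin 2 → ℝ) (i : Fin 2) => (g i : UnitAddCircle) :=
    IsOpenQuotientMap.piMap fun _ => QuotientAddGroup.isOpenQuotientMap_mk
  have h := h1.comp (Homeomorph.finTwoArrow (X := ℝ)).symm.isOpenQuotientMap
  have e : proj = (fun (g : Fin 2 → ℝ) (i : Fin 2) => (g i : UnitAddCircle))
      ∘ (Homeomorph.finTwoArrow (X := ℝ)).symm := by
    funext p i
    fin_cases i <;> simp [proj]
  rw [e]
  exact h.isQuotientMap

lemma continuous_liftT {α : Type*} [TopologicalSpace α] {f : R2 → α} (hc : Continuous f)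
    (hf : Periodic2 (1, 0) (0, 1) f) : Continuous (liftT f) := by
  rw [isQuotientMap_proj.continuous_iff]
  exact hc.congr fun p => (liftT_proj hf p).symm

/-- The lift as a continuous map. -/
def liftC {f : R2 → ℂ} (hc : Continuous f) (hf : Periodic2 (1, 0) (0, 1) f) : C(T2, ℂ) :=
  ⟨liftT f, continuous_liftT hc hf⟩

/-- The Fourier coefficients. -/
def fcoef (f : R2 → ℂ) (k : K) : ℂ := mFourierCoeff (liftT f) k

lemma fourier_coe (n : ℤ) (x : ℝ) :
    fourier n (x : UnitAddCircle) = Complex.exp (((2 * π * n * x : ℝ) : ℂ) * I) := by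
  rw [fourier_coe_apply]
  congr 1
  push_cast
  ring

lemma mFourier_proj (k : K) (p : R2) : mFourier k (proj p) = chr k p := by
  show (∏ i : Fin 2, fourier (k i) (proj p i)) = _
  simp only [Fin.prod_univ_two, proj, Matrix.cons_val_zero, Matrix.cons_val_one, fourier_coe]
  rw [chr, ph_apply, ← Complex.exp_add]
  congr 1
  push_cast
  ring

lemma mFourier_eq_chr (k : K) (t : T2) : mFourier k t = chr k (rep t) := by
  rw [← mFourier_proj, proj_rep]

theorem fcoef_fser {c : K → ℂ} (hc : Summable fun k => ‖c k‖) : fcoef (fser c) = c := by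
  funext k
  have hC : Summable fun j => c j • (mFourier j : C(T2, ℂ)) :=
    Summable.of_norm_bounded hc fun j => by
      rw [norm_smul, mFourier_norm, mul_one]
  have hF : ⇑(∑' j, c j • (mFourier j : C(T2, ℂ))) = liftT (fser c) := by
    funext t
    rw [liftT, fser]
    have := (hC.hasSum.mapL (ContinuousMap.evalCLM ℂ t)).tsum_eq
    simp only [ContinuousMap.evalCLM_apply, ContinuousMap.smul_apply, smul_eq_mul] at this
    rw [← this]
    exact tsum_congr fun j => by rw [mFourier_eq_chr]
  have h := hC.hasSum.mapL (((mFourierBasis (d := Fin 2)).repr.toContinuousLinearEquiv.toContinuousLinearMap).comp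
    (ContinuousMap.toLp (E := ℂ) 2 (volume : Measure T2) ℂ))
  have h2 := h.mapL (lp.evalCLM ℂ (fun _ : K => ℂ) 2 k)
  simp only [ContinuousLinearMap.comp_apply, ContinuousLinearEquiv.coe_coe, map_smul,
    LinearIsometryEquiv.coe_toContinuousLinearEquiv] at h2
  rw [fcoef, ← hF, ← mFourierCoeff_toLp, ← mFourierBasis_repr]
  refine h2.tsum_eq.symm.trans ?_
  rw [tsum_eq_single k]
  · have e : ContinuousMap.toLp (E := ℂ) 2 (volume : Measure T2) ℂ (mFourier k)
        = mFourierBasis (d := Fin 2) k := by rw [coe_mFourierBasis]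
    simp only [e, HilbertBasis.repr_self, lp.evalCLM, LinearMap.mkContinuous_apply, lp.evalₗ_apply,
      lp.single_apply, Pi.single_eq_same, smul_eq_mul, mul_one]
  · intro j hj
    have e : ContinuousMap.toLp (E := ℂ) 2 (volume : Measure T2) ℂ (mFourier j)
        = mFourierBasis (d := Fin 2) j := by rw [coe_mFourierBasis]
    simp only [e, HilbertBasis.repr_self, lp.evalCLM, LinearMap.mkContinuous_apply, lp.evalₗ_apply,
      lp.single_apply, Pi.single_eq_of_ne hj.symm, smul_eq_mul, mul_zero]

lemma integrable_T2 {g : T2 → ℂ} (hg : Continuous g) : Integrable g volume :=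
  hg.integrable_of_hasCompactSupport (HasCompactSupport.of_compactSpace _)

lemma bdd_of_periodic {g : R2 → ℂ} (hc : Continuous g) (hg : Periodic2 (1, 0) (0, 1) g) :
    ∃ C, ∀ p, ‖g p‖ ≤ C := by
  refine ⟨‖liftC hc hg‖, fun p => ?_⟩
  rw [← liftT_proj hg p]
  exact (liftC hc hg).norm_coe_le_norm _

lemma norm_fcoef_le {g : R2 → ℂ} (hc : Continuous g) (hg : Periodic2 (1, 0) (0, 1) g) :
    ∃ C, ∀ k, ‖fcoef g k‖ ≤ C := by
  obtain ⟨C, hC⟩ := bdd_of_periodic hc hg
  refine ⟨C, fun k => (norm_integral_le_of_norm_le_const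
    (Filter.Eventually.of_forall fun t => ?_)).trans_eq (by rw [probReal_univ, mul_one])⟩
  rw [norm_smul]
  refine (mul_le_mul ((mFourier (-k)).norm_coe_le_norm t) (hC _) (norm_nonneg _)
    (norm_nonneg _)).trans_eq ?_
  rw [mFourier_norm, one_mul]

lemma periodic_fderiv {f : R2 → ℂ} (hf : Periodic2 (1, 0) (0, 1) f) (v : R2) :
    Periodic2 (1, 0) (0, 1) fun p => fderiv ℝ f p v := by
  constructor <;> intro p <;> show fderiv ℝ f (p + _) v = fderiv ℝ f p v
  · rw [← fderiv_comp_add_right, show (fun x => f (x + ((1 : ℝ), (0 : ℝ)))) = f from funext hf.1]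
  · rw [← fderiv_comp_add_right, show (fun x => f (x + ((0 : ℝ), (1 : ℝ)))) = f from funext hf.2]

lemma contDiff_fderiv {f : R2 → ℂ} (hf : ContDiff ℝ ∞ f) (v : R2) :
    ContDiff ℝ ∞ fun p => fderiv ℝ f p v :=
  (hf.fderiv_right (m := ∞) le_rfl).clm_apply contDiff_const

/-- The coefficients of a directional derivative. -/
theorem fcoef_fderiv {f : R2 → ℂ} (hs : ContDiff ℝ ∞ f) (hf : Periodic2 (1, 0) (0, 1) f) (v : R2)
    (k : K) : fcoef (fun p => fderiv ℝ f p v) k = dmul v k * fcoef f k := by
  set g : R2 → ℂ := fun p => fderiv ℝ f p v with hg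
  have hgs := contDiff_fderiv hs v
  have hgp := periodic_fderiv hf v
  obtain ⟨C, hC⟩ := bdd_of_periodic hgs.continuous hgp
  have hline : ∀ (p : R2) (h : ℝ), HasDerivAt (fun h : ℝ => f (p + h • v)) (g (p + h • v)) h := by
    intro p h
    have h1 : HasDerivAt (fun h : ℝ => p + h • v) v h := by
      simpa using ((hasDerivAt_id h).smul_const v).const_add p
    exact ((hs.differentiable (by simp)).differentiableAt.hasFDerivAt).comp_hasDerivAt h h1
  have hshift : ∀ (F : R2 → ℂ), Continuous F → Periodic2 (1, 0) (0, 1) F → ∀ h : ℝ,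
      Continuous fun t : T2 => mFourier (-k) t • F (rep t + h • v) := fun F hc hp h => by
    have e : (fun t : T2 => mFourier (-k) t • F (rep t + h • v))
        = fun t => mFourier (-k) t • liftT F (t + proj (h • v)) := by
      funext t
      have h2 := liftT_proj hp (rep t + h • v)
      rw [proj_add, proj_rep] at h2
      rw [h2]
    rw [e]
    exact (mFourier (-k)).continuous.smul
      ((continuous_liftT hc hp).comp (continuous_id.add continuous_const))
  have hd := hasDerivAt_integral_of_dominated_loc_of_deriv_le (μ := (volume : Measure T2))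
    (F := fun (h : ℝ) (t : T2) => mFourier (-k) t • f (rep t + h • v))
    (F' := fun (h : ℝ) (t : T2) => mFourier (-k) t • g (rep t + h • v))
    (bound := fun _ => C) (x₀ := 0) (s := Set.univ) Filter.univ_mem
    (Filter.Eventually.of_forall fun h => (hshift f hs.continuous hf h).aestronglyMeasurable)
    (integrable_T2 (hshift f hs.continuous hf 0))
    (hshift g hgs.continuous hgp 0).aestronglyMeasurable
    (Filter.Eventually.of_forall fun t h _ => by
      rw [norm_smul]
      refine (mul_le_mul ((mFourier (-k)).norm_coe_le_norm t) (hC _) (norm_nonneg _)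
        (norm_nonneg _)).trans_eq ?_
      rw [mFourier_norm, one_mul])
    (integrable_const C)
    (Filter.Eventually.of_forall fun t h _ => (hline (rep t) h).const_smul (mFourier (-k) t))
  have htr : ∀ h : ℝ, ∫ t, mFourier (-k) t • f (rep t + h • v)
      = Complex.exp (((h * ph k v : ℝ) : ℂ) * I) * fcoef f k := by
    intro h
    set q := proj (h • v) with hq
    have e1 : ∀ t : T2, mFourier (-k) t • f (rep t + h • v)
        = Complex.exp (((h * ph k v : ℝ) : ℂ) * I)
          * (mFourier (-k) (t + q) • liftT f (t + q)) := by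
      intro t
      have h2 := liftT_proj hf (rep t + h • v)
      rw [proj_add, proj_rep] at h2
      rw [← hq] at h2
      have h3 : mFourier (-k) (t + q)
          = mFourier (-k) t * Complex.exp (-((((h * ph k v : ℝ)) : ℂ) * I)) := by
        rw [show t + q = proj (rep t + h • v) by rw [proj_add, proj_rep], mFourier_proj,
          chr_add_point, ← mFourier_proj, proj_rep]
        congr 1
        rw [chr, map_smul, smul_eq_mul, ph_apply, ph_apply]
        congr 1
        simp only [Pi.neg_apply, Int.cast_neg]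
        push_cast
        ring
      rw [← h2, h3, Complex.exp_neg, smul_eq_mul, smul_eq_mul]
      field_simp
    rw [integral_congr_ae (Filter.Eventually.of_forall e1), integral_const_mul,
      integral_add_right_eq_self (μ := (volume : Measure T2))
        (fun t => mFourier (-k) t • liftT f t) q]
    rfl
  simp only [htr] at hd
  have hd2 : HasDerivAt (fun h : ℝ => Complex.exp (((h * ph k v : ℝ) : ℂ) * I) * fcoef f k)
      (dmul v k * fcoef f k) 0 := by
    have h1 : HasDerivAt (fun h : ℝ => ((h * ph k v : ℝ) : ℂ) * I) ((ph k v : ℂ) * I) 0 := by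
      simpa using (((hasDerivAt_id (0 : ℝ)).mul_const (ph k v)).ofReal_comp).mul_const I
    simpa [dmul] using h1.cexp.mul_const (fcoef f k)
  have := hd.2.unique hd2
  simpa [fcoef, mFourierCoeff, liftT, g] using this

lemma fcoef_iter {f : R2 → ℂ} (hs : ContDiff ℝ ∞ f) (hf : Periodic2 (1, 0) (0, 1) f) (v : R2)
    (s : ℕ) : ∃ g : R2 → ℂ, ContDiff ℝ ∞ g ∧ Periodic2 (1, 0) (0, 1) g
      ∧ ∀ k, fcoef g k = dmul v k ^ s * fcoef f k := by
  induction s with
  | zero => exact ⟨f, hs, hf, fun k => by simp⟩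
  | succ s ih =>
    obtain ⟨g, g1, g2, g3⟩ := ih
    exact ⟨_, contDiff_fderiv g1 v, periodic_fderiv g2 v,
      fun k => by rw [fcoef_fderiv g1 g2, g3, pow_succ]; ring⟩

lemma summable_inv_kn : Summable fun k : K => 1 / (1 + kn k) ^ 4 := by
  have h1 : Summable fun n : ℤ => 1 / (1 + |(n : ℝ)|) ^ 2 := by
    refine (Real.summable_one_div_int_pow.mpr one_lt_two).of_norm_bounded_eventually ?_
    have : ∀ᶠ n : ℤ in Filter.cofinite, n ≠ 0 := Filter.eventually_cofinite_ne 0
    filter_upwards [this] with n hn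
    rw [Real.norm_of_nonneg (by positivity), ← sq_abs (n : ℝ)]
    gcongr
    linarith
  have h2 : Summable fun z : ℤ × ℤ =>
      1 / (1 + |(z.1 : ℝ)|) ^ 2 * (1 / (1 + |(z.2 : ℝ)|) ^ 2) :=
    summable_mul_of_summable_norm (f := fun n : ℤ => 1 / (1 + |(n : ℝ)|) ^ 2)
      (g := fun n : ℤ => 1 / (1 + |(n : ℝ)|) ^ 2) h1.abs h1.abs
  refine (((piFinTwoEquiv fun _ => ℤ).summable_iff.mpr h2)).of_nonneg_of_le
    (fun k => by have := kn_nonneg k; positivity) fun k => ?_
  simp only [Function.comp_apply, piFinTwoEquiv_apply, kn]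
  have a0 := abs_nonneg (k 0 : ℝ)
  have a1 := abs_nonneg (k 1 : ℝ)
  rw [div_mul_div_comm, one_mul, ← mul_pow]
  refine one_div_le_one_div_of_le (by positivity) ?_
  rw [show (4 : ℕ) = 2 * 2 from rfl, pow_mul]
  refine pow_le_pow_left₀ (by positivity) ?_ 2
  nlinarith

theorem rapid_fcoef {f : R2 → ℂ} (hs : ContDiff ℝ ∞ f) (hf : Periodic2 (1, 0) (0, 1) f) :
    Rapid (fcoef f) := by
  intro s
  set m := s + 4
  obtain ⟨g0, a1, a2, a3⟩ := fcoef_iter hs hf (1, 0) m
  obtain ⟨g1, b1, b2, b3⟩ := fcoef_iter hs hf (0, 1) m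
  obtain ⟨C, hC⟩ := norm_fcoef_le hs.continuous hf
  obtain ⟨C0, hC0⟩ := norm_fcoef_le a1.continuous a2
  obtain ⟨C1, hC1⟩ := norm_fcoef_le b1.continuous b2
  have hb : ∀ k, (1 + kn k) ^ m * ‖fcoef f k‖ ≤ 3 ^ m * (C + C0 + C1) := by
    intro k
    have n0 := norm_nonneg (fcoef f k)
    have x0 := abs_nonneg (k 0 : ℝ)
    have x1 := abs_nonneg (k 1 : ℝ)
    have h2π : (1 : ℝ) ≤ 2 * π := by linarith [Real.two_le_pi]
    have d0 : |(k 0 : ℝ)| ^ m * ‖fcoef f k‖ ≤ C0 := by
      refine le_trans ?_ (hC0 k)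
      rw [a3, norm_mul, norm_pow]
      refine mul_le_mul_of_nonneg_right (pow_le_pow_left₀ x0 ?_ m) n0
      rw [dmul, norm_mul, norm_I, mul_one, Complex.norm_real, ph_apply, Real.norm_eq_abs]
      simpa [abs_mul, Real.two_pi_pos.le, abs_of_pos Real.pi_pos, ← mul_assoc] using
        le_mul_of_one_le_left x0 h2π
    have d1 : |(k 1 : ℝ)| ^ m * ‖fcoef f k‖ ≤ C1 := by
      refine le_trans ?_ (hC1 k)
      rw [b3, norm_mul, norm_pow]
      refine mul_le_mul_of_nonneg_right (pow_le_pow_left₀ x1 ?_ m) n0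
      rw [dmul, norm_mul, norm_I, mul_one, Complex.norm_real, ph_apply, Real.norm_eq_abs]
      simpa [abs_mul, Real.two_pi_pos.le, abs_of_pos Real.pi_pos, ← mul_assoc] using
        le_mul_of_one_le_left x1 h2π
    have e : (1 + kn k) ^ m ≤ 3 ^ m * (1 + |(k 0 : ℝ)| ^ m + |(k 1 : ℝ)| ^ m) := by
      set M := max 1 (max |(k 0 : ℝ)| |(k 1 : ℝ)|) with hM
      have h1 : 1 + kn k ≤ 3 * M := by
        have i1 : (1 : ℝ) ≤ M := le_max_left _ _
        have i2 : |(k 0 : ℝ)| ≤ M := le_max_of_le_right (le_max_left _ _)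
        have i3 : |(k 1 : ℝ)| ≤ M := le_max_of_le_right (le_max_right _ _)
        simp only [kn]; linarith
      refine (pow_le_pow_left₀ (by linarith [kn_nonneg k]) h1 m).trans ?_
      rw [mul_pow]
      refine mul_le_mul_of_nonneg_left ?_ (by positivity)
      rw [hM]
      have := pow_nonneg x0 m
      have := pow_nonneg x1 m
      rcases max_choice 1 (max |(k 0 : ℝ)| |(k 1 : ℝ)|) with h | h <;> rw [h]
      · rw [one_pow]; linarith
      · rcases max_choice |(k 0 : ℝ)| |(k 1 : ℝ)| with h' | h' <;> rw [h'] <;> linarith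
    refine (mul_le_mul_of_nonneg_right e n0).trans ?_
    rw [mul_assoc]
    refine mul_le_mul_of_nonneg_left ?_ (by positivity)
    have := hC k
    linarith
  refine (summable_inv_kn.mul_left (3 ^ m * (C + C0 + C1))).of_nonneg_of_le
    (fun k => mul_nonneg (pow_nonneg (by linarith [kn_nonneg k]) _) (norm_nonneg _)) fun k => ?_
  have hp : 0 < (1 + kn k) ^ 4 := by have := kn_nonneg k; positivity
  rw [mul_one_div, le_div_iff₀ hp]
  calc (1 + kn k) ^ s * ‖fcoef f k‖ * (1 + kn k) ^ 4 = (1 + kn k) ^ m * ‖fcoef f k‖ := by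
        simp only [m, pow_add]; ring
    _ ≤ _ := hb k

theorem fser_fcoef {f : R2 → ℂ} (hc : Continuous f) (hf : Periodic2 (1, 0) (0, 1) f)
    (hs : Summable fun k => ‖fcoef f k‖) : fser (fcoef f) = f := by
  funext p
  have h := hasSum_mFourier_series_apply_of_summable (f := liftC hc hf)
    (Summable.of_norm hs) (proj p)
  simp only [smul_eq_mul, mFourier_proj] at h
  have e : liftC hc hf (proj p) = f p := liftT_proj hf p
  rw [e] at h
  exact h.tsum_eq

end

end Vale.Agent.P205.Four
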