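import Vale.Agent.P205.Fourier.Coeff

/-!
Functions with weighted absolutely summable Fourier series form an algebra.
-/

namespace Vale.Agent.P205.Four

open scoped Real ComplexConjugate
open Complex

noncomputable section

/-- A submultiplicative weight. -/
structure Wt (W : K → ℝ) : Prop where
  one_le : ∀ k, 1 ≤ W k
  zero : W 0 = 1
  mul : ∀ j k, W (j + k) ≤ W j * W k

/-- The trivial weight. -/
def wone : K → ℝ := fun _ => 1

lemma wt_wone : Wt wone := ⟨fun _ => le_rfl, rfl, fun _ _ => by simp [wone]⟩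

/-- The weighted norm. -/
def wn (W : K → ℝ) (c : K → ℂ) : ℝ := ∑' k, W k * ‖c k‖

/-- A function with weighted norm at most `r`. -/
def Bd (W : K → ℝ) (f : R2 → ℂ) (r : ℝ) : Prop :=
  ∃ c, (Summable fun k => W k * ‖c k‖) ∧ wn W c ≤ r ∧ f = fser c

variable {W : K → ℝ}

lemma Wt.nonneg (hW : Wt W) (k : K) : 0 ≤ W k := le_trans zero_le_one (hW.one_le k)

lemma Wt.wn_nonneg (hW : Wt W) (c : K → ℂ) : 0 ≤ wn W c :=
  tsum_nonneg fun k => mul_nonneg (hW.nonneg k) (norm_nonneg _)

lemma Wt.summable_norm (hW : Wt W) {c : K → ℂ} (hc : Summable fun k => W k * ‖c k‖) :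
    Summable fun k => ‖c k‖ :=
  hc.of_nonneg_of_le (fun k => norm_nonneg _) fun k =>
    le_mul_of_one_le_left (norm_nonneg _) (hW.one_le k)

lemma wn_wone (c : K → ℂ) : wn wone c = ∑' k, ‖c k‖ := by simp [wn, wone]

lemma Bd.nonneg {f : R2 → ℂ} {r : ℝ} (hW : Wt W) (h : Bd W f r) : 0 ≤ r := by
  obtain ⟨c, -, h2, -⟩ := h
  exact le_trans (hW.wn_nonneg c) h2

lemma Bd.mono {f : R2 → ℂ} {r r' : ℝ} (h : Bd W f r) (hr : r ≤ r') : Bd W f r' := by
  obtain ⟨c, h1, h2, h3⟩ := h
  exact ⟨c, h1, h2.trans hr, h3⟩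

lemma Bd.coef {f : R2 → ℂ} {r : ℝ} (hW : Wt W) (h : Bd W f r) :
    (Summable fun k => W k * ‖fcoef f k‖) ∧ wn W (fcoef f) ≤ r ∧ fser (fcoef f) = f := by
  obtain ⟨c, h1, h2, rfl⟩ := h
  rw [fcoef_fser (hW.summable_norm h1)]
  exact ⟨h1, h2, rfl⟩

lemma fser_add {c d : K → ℂ} (hc : Summable fun k => ‖c k‖) (hd : Summable fun k => ‖d k‖) :
    fser (fun k => c k + d k) = fser c + fser d := by
  funext p
  rw [Pi.add_apply, fser, fser, fser, ← (summable_fser hc p).tsum_add (summable_fser hd p)]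
  exact tsum_congr fun k => add_mul _ _ _

lemma fser_sub {c d : K → ℂ} (hc : Summable fun k => ‖c k‖) (hd : Summable fun k => ‖d k‖) :
    fser (fun k => c k - d k) = fser c - fser d := by
  funext p
  rw [Pi.sub_apply, fser, fser, fser, ← (summable_fser hc p).tsum_sub (summable_fser hd p)]
  exact tsum_congr fun k => sub_mul _ _ _

lemma fser_smul (z : ℂ) (c : K → ℂ) : fser (fun k => z * c k) = fun p => z * fser c p := by
  funext p
  rw [fser, fser, ← tsum_mul_left]
  exact tsum_congr fun k => mul_assoc _ _ _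

theorem Bd.add {f g : R2 → ℂ} {r s : ℝ} (hW : Wt W) (hf : Bd W f r) (hg : Bd W g s) :
    Bd W (f + g) (r + s) := by
  obtain ⟨c, c1, c2, rfl⟩ := hf
  obtain ⟨d, d1, d2, rfl⟩ := hg
  have hle : ∀ k, W k * ‖c k + d k‖ ≤ W k * ‖c k‖ + W k * ‖d k‖ := fun k => by
    rw [← mul_add]; exact mul_le_mul_of_nonneg_left (norm_add_le _ _) (hW.nonneg k)
  have h1 : Summable fun k => W k * ‖c k + d k‖ :=
    (c1.add d1).of_nonneg_of_le (fun k => mul_nonneg (hW.nonneg k) (norm_nonneg _)) hle
  refine ⟨fun k => c k + d k, h1, ?_, (fser_add (hW.summable_norm c1) (hW.summable_norm d1)).symm⟩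
  refine le_trans (h1.tsum_le_tsum hle (c1.add d1)) ?_
  rw [c1.tsum_add d1]
  exact add_le_add c2 d2

theorem Bd.smul {f : R2 → ℂ} {r : ℝ} (hW : Wt W) (hf : Bd W f r) (z : ℂ) :
    Bd W (fun p => z * f p) (‖z‖ * r) := by
  obtain ⟨c, c1, c2, rfl⟩ := hf
  have e : ∀ k, W k * ‖z * c k‖ = ‖z‖ * (W k * ‖c k‖) := fun k => by rw [norm_mul]; ring
  refine ⟨fun k => z * c k, ?_, ?_, (fser_smul z c).symm⟩
  · simp only [e]; exact c1.mul_left _
  · simp only [wn, e, tsum_mul_left]
    exact mul_le_mul_of_nonneg_left c2 (norm_nonneg _)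

theorem Bd.sub {f g : R2 → ℂ} {r s : ℝ} (hW : Wt W) (hf : Bd W f r) (hg : Bd W g s) :
    Bd W (f - g) (r + s) := by
  have := hf.add hW (hg.smul hW (-1))
  rw [norm_neg, norm_one, one_mul] at this
  convert this using 1
  funext p; simp [sub_eq_add_neg]

/-- The series of translates in two indices, indexed by the sum. -/
def shear : K × K ≃ K × K where
  toFun z := (z.1 + z.2, z.2)
  invFun z := (z.1 - z.2, z.2)
  left_inv z := by simp
  right_inv z := by simp

theorem Bd.mul {f g : R2 → ℂ} {r s : ℝ} (hW : Wt W) (hf : Bd W f r) (hg : Bd W g s) :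
    Bd W (f * g) (r * s) := by
  obtain ⟨c, c1, c2, rfl⟩ := hf
  obtain ⟨d, d1, d2, rfl⟩ := hg
  set F : K × K → ℝ := fun z => W z.1 * ‖c z.1‖ * (W z.2 * ‖d z.2‖) with hF
  have c0 : ∀ k, 0 ≤ W k * ‖c k‖ := fun k => mul_nonneg (hW.nonneg k) (norm_nonneg _)
  have d0 : ∀ k, 0 ≤ W k * ‖d k‖ := fun k => mul_nonneg (hW.nonneg k) (norm_nonneg _)
  have hFs : Summable F := c1.mul_of_nonneg d1 c0 d0
  have hG : Summable (fun z => F (shear.symm z)) := shear.symm.summable_iff.mpr hFs
  have hFval : ∑' z, F z = wn W c * wn W d := (c1.tsum_mul_tsum d1 hFs).symm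
  have hterm : ∀ k j, W k * ‖c (k - j) * d j‖ ≤ F (shear.symm (k, j)) := fun k j => by
    have h := hW.mul (k - j) j
    rw [sub_add_cancel] at h
    rw [norm_mul, hF]
    simp only [shear, Equiv.coe_fn_symm_mk]
    calc W k * (‖c (k - j)‖ * ‖d j‖) ≤ W (k - j) * W j * (‖c (k - j)‖ * ‖d j‖) :=
          mul_le_mul_of_nonneg_right h (by positivity)
      _ = _ := by ring
  have hin : ∀ k, Summable fun j => ‖c (k - j) * d j‖ := fun k => by
    refine (hG.prod_factor k).of_nonneg_of_le (fun j => norm_nonneg _) fun j => ?_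
    exact le_trans (le_mul_of_one_le_left (norm_nonneg _) (hW.one_le k)) (hterm k j)
  have hle : ∀ k, W k * ‖∑' j, c (k - j) * d j‖ ≤ ∑' j, F (shear.symm (k, j)) := fun k => by
    refine le_trans (mul_le_mul_of_nonneg_left (norm_tsum_le_tsum_norm (hin k)) (hW.nonneg k)) ?_
    rw [← tsum_mul_left]
    exact ((hin k).mul_left _).tsum_le_tsum (hterm k) (hG.prod_factor k)
  have h1 : Summable fun k => W k * ‖∑' j, c (k - j) * d j‖ :=
    hG.prod.of_nonneg_of_le (fun k => mul_nonneg (hW.nonneg k) (norm_nonneg _)) hle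
  refine ⟨fun k => ∑' j, c (k - j) * d j, h1, ?_, ?_⟩
  · refine le_trans (h1.tsum_le_tsum hle hG.prod) ?_
    rw [← hG.tsum_prod, shear.symm.tsum_eq F, hFval]
    exact mul_le_mul c2 d2 (hW.wn_nonneg d) (le_trans (hW.wn_nonneg c) c2)
  · funext p
    have sc := summable_fser (hW.summable_norm c1) p
    have sd := summable_fser (hW.summable_norm d1) p
    set H : K × K → ℂ := fun z => c z.1 * chr z.1 p * (d z.2 * chr z.2 p) with hH
    have sH : Summable H := by
      refine Summable.of_norm_bounded hFs fun z => ?_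
      rw [hH, hF]
      simp only [norm_mul, norm_chr, mul_one]
      exact mul_le_mul (le_mul_of_one_le_left (norm_nonneg _) (hW.one_le _))
        (le_mul_of_one_le_left (norm_nonneg _) (hW.one_le _)) (norm_nonneg _) (c0 _)
    have sH' : Summable (fun z => H (shear.symm z)) := shear.symm.summable_iff.mpr sH
    rw [Pi.mul_apply, fser, fser, fser, sc.tsum_mul_tsum sd sH, ← shear.symm.tsum_eq H,
      sH'.tsum_prod]
    refine tsum_congr fun k => ?_
    rw [← tsum_mul_right]
    refine tsum_congr fun j => ?_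
    simp only [hH, shear, Equiv.coe_fn_symm_mk]
    have := chr_add_index (k - j) j p
    rw [sub_add_cancel] at this
    rw [this]; ring

lemma bd_one (hW : Wt W) : Bd W 1 1 := by
  classical
  have e : (fun k : K => W k * ‖(if k = 0 then (1 : ℂ) else 0)‖) = fun k => if k = 0 then (1 : ℝ) else 0 := by
    funext k
    split_ifs with h
    · simp [h, hW.zero]
    · simp
  refine ⟨fun k => if k = 0 then 1 else 0, ?_, ?_, ?_⟩
  · rw [e]; exact summable_of_ne_finset_zero (s := {0}) fun k hk => by simp at hk; simp [hk]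
  · rw [wn, e, tsum_ite_eq]
  · funext p
    rw [fser, tsum_eq_single (0 : K) fun k hk => by simp [hk]]
    simp [chr_zero]

theorem Bd.pow {f : R2 → ℂ} {r : ℝ} (hW : Wt W) (hf : Bd W f r) : ∀ n : ℕ, Bd W (f ^ n) (r ^ n)
  | 0 => by simpa using bd_one hW
  | n + 1 => by rw [pow_succ, pow_succ]; exact (Bd.pow hW hf n).mul hW hf

theorem Bd.series (hW : Wt W) {f : ℕ → R2 → ℂ} {r : ℕ → ℝ} (hf : ∀ n, Bd W (f n) (r n))
    (hr : Summable r) : Bd W (fun p => ∑' n, f n p) (∑' n, r n) := by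
  choose c c1 c2 c3 using hf
  set F : ℕ × K → ℝ := fun z => W z.2 * ‖c z.1 z.2‖ with hF
  have F0 : 0 ≤ F := fun z => mul_nonneg (hW.nonneg _) (norm_nonneg _)
  have hFs : Summable F := (summable_prod_of_nonneg F0).mpr
    ⟨fun n => c1 n, hr.of_nonneg_of_le (fun n => hW.wn_nonneg (c n)) fun n => c2 n⟩
  have hG : Summable fun z : K × ℕ => F z.swap := (Equiv.prodComm K ℕ).summable_iff.mpr hFs
  have hin : ∀ k, Summable fun n => ‖c n k‖ := fun k =>
    (hG.prod_factor k).of_nonneg_of_le (fun n => norm_nonneg _)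
      fun n => le_mul_of_one_le_left (norm_nonneg _) (hW.one_le k)
  have hle : ∀ k, W k * ‖∑' n, c n k‖ ≤ ∑' n, F (n, k) := fun k => by
    refine le_trans (mul_le_mul_of_nonneg_left (norm_tsum_le_tsum_norm (hin k)) (hW.nonneg k)) ?_
    rw [← tsum_mul_left]
  have h1 : Summable fun k => W k * ‖∑' n, c n k‖ :=
    hG.prod.of_nonneg_of_le (fun k => mul_nonneg (hW.nonneg k) (norm_nonneg _)) hle
  refine ⟨fun k => ∑' n, c n k, h1, ?_, ?_⟩
  · refine le_trans (h1.tsum_le_tsum hle hG.prod) ?_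
    calc ∑' k, ∑' n, F (n, k) = ∑' n, ∑' k, F (n, k) :=
          Summable.tsum_comm (f := fun n k => F (n, k)) hFs
      _ ≤ ∑' n, r n := hFs.prod.tsum_le_tsum (fun n => c2 n) hr
  · funext p
    have sH : Summable (Function.uncurry fun n k => c n k * chr k p) := by
      refine Summable.of_norm_bounded hFs fun z => ?_
      simp only [Function.uncurry, norm_mul, norm_chr, mul_one, hF]
      exact le_mul_of_one_le_left (norm_nonneg _) (hW.one_le _)
    simp only [c3, fser]
    rw [← Summable.tsum_comm sH]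
    exact tsum_congr fun k => tsum_mul_right

theorem Bd.exp {f : R2 → ℂ} {r : ℝ} (hW : Wt W) (hf : Bd W f r) :
    Bd W (fun p => Complex.exp (f p)) (Real.exp r) := by
  have h := Bd.series hW (fun n => (hf.pow hW n).smul hW ((n.factorial : ℂ))⁻¹)
    (r := fun n => ‖((n.factorial : ℂ))⁻¹‖ * r ^ n) ?_
  · have e1 : (fun p => Complex.exp (f p)) = fun p => ∑' n, ((n.factorial : ℂ))⁻¹ * (f ^ n) p := by
      funext p
      rw [Complex.exp_eq_exp_ℂ, NormedSpace.exp_eq_tsum ℂ]
      simp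
    have e2 : Real.exp r = ∑' n, ‖((n.factorial : ℂ))⁻¹‖ * r ^ n := by
      rw [Real.exp_eq_exp_ℝ, NormedSpace.exp_eq_tsum ℝ]
      simp
    rw [e1, e2]; exact h
  · refine (Real.summable_pow_div_factorial r).congr fun n => ?_
    simp [div_eq_inv_mul]

theorem Bd.exp_sub_one {f : R2 → ℂ} {r : ℝ} (hW : Wt W) (hf : Bd W f r) :
    Bd W (fun p => Complex.exp (f p) - 1) (r * Real.exp r) := by
  have hr := hf.nonneg hW
  have h := Bd.series hW (fun n => (hf.pow hW (n + 1)).smul hW (((n + 1).factorial : ℂ))⁻¹)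
    (r := fun n => ‖(((n + 1).factorial : ℂ))⁻¹‖ * r ^ (n + 1)) ?_
  · have e1 : (fun p => Complex.exp (f p) - 1)
        = fun p => ∑' n, (((n + 1).factorial : ℂ))⁻¹ * (f ^ (n + 1)) p := by
      funext p
      have hs : Summable fun n => ((n.factorial : ℂ))⁻¹ * f p ^ n := by
        simpa [smul_eq_mul] using NormedSpace.expSeries_summable' (𝕂 := ℂ) (f p)
      have := hs.tsum_eq_zero_add
      rw [Complex.exp_eq_exp_ℂ, NormedSpace.exp_eq_tsum ℂ]
      simp only [smul_eq_mul, this]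
      simp
    rw [e1]
    refine h.mono ?_
    have e3 : Summable fun n => r * (r ^ n / (n.factorial : ℝ)) :=
      (Real.summable_pow_div_factorial r).mul_left r
    have e4 : ∀ n : ℕ, ‖(((n + 1).factorial : ℂ))⁻¹‖ * r ^ (n + 1)
        ≤ r * (r ^ n / (n.factorial : ℝ)) := fun n => by
      rw [norm_inv, Complex.norm_natCast, pow_succ, ← div_eq_inv_mul, mul_comm r, div_mul_eq_mul_div]
      refine div_le_div_of_nonneg_left (by positivity) (by exact_mod_cast Nat.factorial_pos n) ?_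
      exact_mod_cast Nat.factorial_le (Nat.le_succ n)
    refine le_trans ((e3.of_nonneg_of_le (fun n => by positivity) e4).tsum_le_tsum e4 e3) ?_
    rw [tsum_mul_left, Real.exp_eq_exp_ℝ, NormedSpace.exp_eq_tsum ℝ]
    simp [div_eq_inv_mul]
  · exact ((Real.summable_pow_div_factorial r).comp_injective
      (add_left_injective 1)).congr fun n => by simp [div_eq_inv_mul]

/-- Symmetric coefficients: those of real functions. -/
def Sym (c : K → ℂ) : Prop := ∀ k, c (-k) = conj (c k)

lemma Sym.real {c : K → ℂ} (hc : Sym c) (p : R2) :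
    (((fser c p).re : ℝ) : ℂ) = fser c p := by
  rw [← Complex.conj_eq_iff_re, fser, Complex.conj_tsum]
  refine ((Equiv.neg K).tsum_eq _).symm.trans (tsum_congr fun k => ?_)
  simp [hc k, conj_chr]

lemma sym_fcoef_of_real {f : R2 → ℂ} {c : K → ℂ} (hc : Summable fun k => ‖c k‖) (hf : f = fser c)
    (hr : ∀ p, conj (f p) = f p) : Sym c := by
  set d : K → ℂ := fun k => conj (c (-k)) with hd
  have hds : Summable fun k => ‖d k‖ := by
    simpa [hd, Function.comp_def] using (Equiv.neg K).summable_iff.mpr hc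
  have e : fser d = fser c := by
    funext p
    have h1 := hr p
    rw [hf, fser, Complex.conj_tsum] at h1
    refine Eq.trans ?_ h1
    rw [fser]
    refine ((Equiv.neg K).tsum_eq _).symm.trans (tsum_congr fun k => ?_)
    simp [hd, conj_chr]
  have := (fcoef_fser hds).symm.trans ((congrArg fcoef e).trans (fcoef_fser hc))
  intro k
  have := congrFun this (-k)
  simp only [hd, neg_neg] at this
  exact this.symm

lemma Sym.add {c d : K → ℂ} (hc : Sym c) (hd : Sym d) : Sym fun k => c k + d k :=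
  fun k => by simp [hc k, hd k]

lemma Sym.mul {c d : K → ℂ} (hc : Sym c) (hd : Sym d) : Sym fun k => c k * d k :=
  fun k => by simp [hc k, hd k]

lemma sym_dmul (v : R2) : Sym (dmul v) := fun k => by
  simp [dmul, ph_apply, map_ofNat]
  ring

end

end Vale.Agent.P205.Four
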