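import Vale.Agent.P205.Defs

/-!
Rapidly decreasing double Fourier series are smooth periodic functions.
-/

namespace Vale.Agent.P205.Four

open scoped ContDiff Real
open Complex

noncomputable section

/-- Frequencies. -/
abbrev K := Fin 2 → ℤ

/-- The phase of a character. -/
def ph (k : K) : R2 →L[ℝ] ℝ :=
  (2 * π * k 0) • ContinuousLinearMap.fst ℝ ℝ ℝ + (2 * π * k 1) • ContinuousLinearMap.snd ℝ ℝ ℝ

lemma ph_apply (k : K) (p : R2) : ph k p = 2 * π * (k 0 * p.1 + k 1 * p.2) := by
  simp [ph]; ring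

/-- The character. -/
def chr (k : K) (p : R2) : ℂ := Complex.exp ((ph k p : ℂ) * I)

/-- The size of a frequency. -/
def kn (k : K) : ℝ := |(k 0 : ℝ)| + |(k 1 : ℝ)|

lemma kn_nonneg (k : K) : 0 ≤ kn k := add_nonneg (abs_nonneg _) (abs_nonneg _)

lemma kn_neg (k : K) : kn (-k) = kn k := by simp [kn]

lemma kn_add (j k : K) : kn (j + k) ≤ kn j + kn k := by
  simp only [kn, Pi.add_apply, Int.cast_add]
  linarith [abs_add_le (j 0 : ℝ) (k 0), abs_add_le (j 1 : ℝ) (k 1)]

lemma kn_zero : kn 0 = 0 := by simp [kn]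

lemma one_le_kn {k : K} (hk : k ≠ 0) : 1 ≤ kn k := by
  obtain ⟨i, hi⟩ := Function.ne_iff.mp hk
  have h1 : (1 : ℝ) ≤ |(k i : ℝ)| := by
    rw [← Int.cast_abs]; exact_mod_cast Int.one_le_abs hi
  fin_cases i <;> simp [kn] at * <;> linarith [abs_nonneg (k 0 : ℝ), abs_nonneg (k 1 : ℝ)]

lemma norm_chr (k : K) (p : R2) : ‖chr k p‖ = 1 := Complex.norm_exp_ofReal_mul_I _

lemma chr_add_index (j k : K) (p : R2) : chr (j + k) p = chr j p * chr k p := by
  rw [chr, chr, chr, ← Complex.exp_add, ph_apply, ph_apply, ph_apply]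
  congr 1
  simp only [Pi.add_apply, Int.cast_add]
  push_cast
  ring

lemma chr_zero (p : R2) : chr 0 p = 1 := by simp [chr, ph_apply]

lemma conj_chr (k : K) (p : R2) : (starRingEnd ℂ) (chr k p) = chr (-k) p := by
  rw [chr, chr, ← Complex.exp_conj, ph_apply, ph_apply]
  congr 1
  simp [map_ofNat]
  ring

lemma chr_add_point (k : K) (p q : R2) : chr k (p + q) = chr k p * chr k q := by
  rw [chr, chr, chr, ← Complex.exp_add, map_add, Complex.ofReal_add, add_mul]

lemma chr_periodic (k : K) : Periodic2 (1, 0) (0, 1) (chr k) := by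
  have e : ∀ n : ℤ, Complex.exp ((((2 * π * n) : ℝ) : ℂ) * I) = 1 := fun n => by
    rw [show (((2 * π * n : ℝ)) : ℂ) * I = n * (2 * π * I) by push_cast; ring,
      Complex.exp_int_mul_two_pi_mul_I]
  have e0 : ph k (1, 0) = 2 * π * (k 0 : ℤ) := by simp [ph_apply]
  have e1 : ph k (0, 1) = 2 * π * (k 1 : ℤ) := by simp [ph_apply]
  exact ⟨fun p => by rw [chr_add_point, chr, chr, e0, e, mul_one],
    fun p => by rw [chr_add_point, chr, chr, e1, e, mul_one]⟩

/-- The function with given coefficients. -/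
def fser (c : K → ℂ) (p : R2) : ℂ := ∑' k, c k * chr k p

/-- Rapid decay. -/
def Rapid (c : K → ℂ) : Prop := ∀ s : ℕ, Summable fun k => (1 + kn k) ^ s * ‖c k‖

lemma Rapid.summable {c : K → ℂ} (hc : Rapid c) : Summable fun k => ‖c k‖ := by
  simpa using hc 0

lemma Rapid.mul_bdd {c m : K → ℂ} (hc : Rapid c) {C : ℝ} {j : ℕ}
    (hm : ∀ k, ‖m k‖ ≤ C * (1 + kn k) ^ j) : Rapid fun k => m k * c k := fun s => by
  refine ((hc (s + j)).mul_left C).of_nonneg_of_le
    (fun k => mul_nonneg (pow_nonneg (by linarith [kn_nonneg k]) _) (norm_nonneg _)) fun k => ?_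
  rw [norm_mul, pow_add]
  calc (1 + kn k) ^ s * (‖m k‖ * ‖c k‖) ≤ (1 + kn k) ^ s * (C * (1 + kn k) ^ j * ‖c k‖) :=
        mul_le_mul_of_nonneg_left (mul_le_mul_of_nonneg_right (hm k) (norm_nonneg _))
          (pow_nonneg (by linarith [kn_nonneg k]) _)
    _ = _ := by ring

lemma summable_fser {c : K → ℂ} (hc : Summable fun k => ‖c k‖) (p : R2) :
    Summable fun k => c k * chr k p :=
  Summable.of_norm_bounded hc fun k => by rw [norm_mul, norm_chr, mul_one]

lemma norm_fser_le {c : K → ℂ} (hc : Summable fun k => ‖c k‖) (p : R2) :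
    ‖fser c p‖ ≤ ∑' k, ‖c k‖ :=
  tsum_of_norm_bounded hc.hasSum fun k => by rw [norm_mul, norm_chr, mul_one]

lemma fser_periodic (c : K → ℂ) : Periodic2 (1, 0) (0, 1) (fser c) :=
  ⟨fun p => tsum_congr fun k => by rw [(chr_periodic k).1],
    fun p => tsum_congr fun k => by rw [(chr_periodic k).2]⟩

lemma continuous_chr (k : K) : Continuous (chr k) := by unfold chr; fun_prop

lemma continuous_fser {c : K → ℂ} (hc : Summable fun k => ‖c k‖) : Continuous (fser c) :=
  continuous_tsum (fun k => continuous_const.mul (continuous_chr k)) hc fun k p => by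
    rw [norm_mul, norm_chr, mul_one]

/-- The one-dimensional character. -/
def wave (t : ℝ) : ℂ := Complex.exp ((t : ℂ) * I)

lemma hasDerivAt_wave (t : ℝ) : HasDerivAt wave (wave t * I) t := by
  have h : HasDerivAt (fun t : ℝ => (t : ℂ) * I) I t := by
    simpa using ((hasDerivAt_id t).ofReal_comp).mul_const I
  exact h.cexp

lemma iteratedDeriv_wave (m : ℕ) : iteratedDeriv m wave = fun t => I ^ m * wave t := by
  induction m with
  | zero => simp
  | succ m ih =>
    funext t
    rw [iteratedDeriv_succ, ih, ((hasDerivAt_wave t).const_mul (I ^ m)).deriv]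
    ring

lemma contDiff_wave : ContDiff ℝ ∞ wave :=
  (Complex.ofRealCLM.contDiff.mul contDiff_const).cexp

lemma contDiff_chr (k : K) : ContDiff ℝ ∞ (chr k) := contDiff_wave.comp (ph k).contDiff

lemma norm_ph_le (k : K) : ‖ph k‖ ≤ 2 * π * kn k := by
  have hk := kn_nonneg k
  refine ContinuousLinearMap.opNorm_le_bound _ (by positivity) fun p => ?_
  rw [ph_apply, Real.norm_eq_abs, abs_mul, abs_of_pos Real.two_pi_pos, mul_assoc (2 * π)]
  refine mul_le_mul_of_nonneg_left ?_ Real.two_pi_pos.le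
  refine (abs_add_le _ _).trans ?_
  rw [abs_mul, abs_mul, kn, add_mul]
  exact add_le_add (mul_le_mul_of_nonneg_left (norm_fst_le p) (abs_nonneg _))
    (mul_le_mul_of_nonneg_left (norm_snd_le p) (abs_nonneg _))

lemma norm_iteratedFDeriv_chr (k : K) (m : ℕ) (p : R2) :
    ‖iteratedFDeriv ℝ m (chr k) p‖ ≤ (2 * π * kn k) ^ m := by
  have h := (ph k).iteratedFDeriv_comp_right (contDiff_wave) p (i := m) (by exact_mod_cast le_top)
  rw [show chr k = wave ∘ ph k from rfl, h]
  refine (ContinuousMultilinearMap.norm_compContinuousLinearMap_le _ _).trans ?_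
  rw [norm_iteratedFDeriv_eq_norm_iteratedDeriv, iteratedDeriv_wave, norm_mul, norm_pow, norm_I,
    one_pow, one_mul, wave, Complex.norm_exp_ofReal_mul_I, one_mul, Finset.prod_const,
    Finset.card_univ, Fintype.card_fin]
  exact pow_le_pow_left₀ (norm_nonneg _) (norm_ph_le k) m

lemma contDiff_term (c : ℂ) (k : K) : ContDiff ℝ ∞ fun p => c * chr k p :=
  contDiff_const.mul (contDiff_chr k)

theorem contDiff_fser {c : K → ℂ} (hc : Rapid c) : ContDiff ℝ ∞ (fser c) := by
  refine contDiff_tsum (v := fun m k => (2 * π) ^ m * ((1 + kn k) ^ m * ‖c k‖))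
    (fun k => contDiff_term (c k) k) (fun m _ => (hc m).mul_left _) fun m k p _ => ?_
  rw [show (fun p => c k * chr k p) = fun p => c k • chr k p from rfl]
  rw [iteratedFDeriv_const_smul_apply' ((contDiff_chr k).of_le (by exact_mod_cast le_top)).contDiffAt,
    norm_smul, ← mul_assoc, ← mul_pow, mul_comm ‖c k‖]
  refine mul_le_mul_of_nonneg_right ((norm_iteratedFDeriv_chr k m p).trans ?_) (norm_nonneg _)
  exact pow_le_pow_left₀ (by have := kn_nonneg k; positivity)
    (mul_le_mul_of_nonneg_left (by linarith) Real.two_pi_pos.le) m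

/-- The derivative multiplier in direction `v`. -/
def dmul (v : R2) (k : K) : ℂ := (ph k v : ℂ) * I

lemma hasFDerivAt_term (c : ℂ) (k : K) (p : R2) :
    HasFDerivAt (fun p => c * chr k p) ((ph k).smulRight (c * (chr k p * I))) p := by
  have h := (((hasDerivAt_wave (ph k p)).hasFDerivAt).comp p (ph k).hasFDerivAt).const_mul c
  refine h.congr_fderiv ?_
  ext <;> simp [chr, wave, mul_comm, mul_left_comm]

theorem fderiv_fser {c : K → ℂ} (hc : Rapid c) (p v : R2) :
    fderiv ℝ (fser c) p v = fser (fun k => dmul v k * c k) p := by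
  have hu : Summable fun k => 2 * π * ((1 + kn k) ^ 1 * ‖c k‖) := (hc 1).mul_left _
  have hb : ∀ k q, ‖(ph k).smulRight (c k * (chr k q * I))‖ ≤ 2 * π * ((1 + kn k) ^ 1 * ‖c k‖) := by
    intro k q
    rw [ContinuousLinearMap.norm_smulRight_apply, norm_mul, norm_mul, norm_chr, norm_I, mul_one,
      mul_one, pow_one, ← mul_assoc]
    refine mul_le_mul_of_nonneg_right ((norm_ph_le k).trans ?_) (norm_nonneg _)
    exact mul_le_mul_of_nonneg_left (by linarith) Real.two_pi_pos.le
  have hd : HasFDerivAt (fser c) (∑' k, (ph k).smulRight (c k * (chr k p * I))) p :=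
    hasFDerivAt_tsum hu (fun k q => hasFDerivAt_term (c k) k q) hb
      (summable_fser hc.summable (0 : R2)) p
  rw [hd.fderiv]
  have hs := (Summable.of_norm_bounded hu fun k => hb k p).hasSum.mapL
    (ContinuousLinearMap.apply ℝ ℂ v)
  refine hs.tsum_eq.symm.trans (tsum_congr fun k => ?_)
  simp [dmul]
  ring

lemma norm_dmul_le (v : R2) (k : K) : ‖dmul v k‖ ≤ 2 * π * ‖v‖ * (1 + kn k) ^ 1 := by
  rw [dmul, norm_mul, norm_I, mul_one, Complex.norm_real, pow_one]
  refine ((ph k).le_opNorm v).trans ?_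
  calc ‖ph k‖ * ‖v‖ ≤ 2 * π * (1 + kn k) * ‖v‖ := mul_le_mul_of_nonneg_right
        ((norm_ph_le k).trans (mul_le_mul_of_nonneg_left (by linarith) Real.two_pi_pos.le))
        (norm_nonneg _)
    _ = _ := by ring

lemma Rapid.dmul {c : K → ℂ} (hc : Rapid c) (v : R2) : Rapid fun k => Four.dmul v k * c k :=
  hc.mul_bdd (norm_dmul_le v)

end

end Vale.Agent.P205.Four
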